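import Vale.Agent.P071.Bdl.B1

/-!
# P071, quantitative hot spots: calculus

Logarithmic Caccioppoli inequality, radial cut-offs, and the mean value inequality for
superharmonic `C²` functions against radial weights.
-/

open MeasureTheory Set Metric Filter Topology

noncomputable section

namespace Vale.Agent.P071.Quant

open Lim

/-- Logarithmic Caccioppoli inequality for a positive `C²` function. -/
theorem log_cacc {ψ η : ℂ → ℝ} {S : Set ℂ} (hS : IsOpen S) (hψ : ContDiffOn ℝ 2 ψ S)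
    (hpos : ∀ z ∈ S, 0 < ψ z)
    (hη : ContDiff ℝ 1 η) (hc : HasCompactSupport η) (hs : tsupport η ⊆ S) :
    Integrable (fun z => η z ^ 2 * (gsq ψ z / ψ z ^ 2)) ∧
    Integrable (fun z => η z ^ 2 * (lap ψ z / ψ z)) ∧ Integrable (gsq η) ∧
    5 / 6 * ∫ z, η z ^ 2 * (gsq ψ z / ψ z ^ 2) ≤
      (∫ z, η z ^ 2 * (lap ψ z / ψ z)) + 6 * ∫ z, gsq η z := by
  have hψ1 : ContDiffOn ℝ 1 (fderiv ℝ ψ) S := hψ.fderiv_of_isOpen hS (by norm_num)
  have hψv : ∀ v : ℂ, ContDiffOn ℝ 1 (fun z => fderiv ℝ ψ z v) S := fun v =>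
    hψ1.clm_apply contDiffOn_const
  have hψ0 : ContDiffOn ℝ 1 ψ S := hψ.of_le (by norm_num)
  have hne : ∀ z ∈ S, ψ z ≠ 0 := fun z hz => (hpos z hz).ne'
  have hW : ∀ v : ℂ, ContDiffOn ℝ 1 (fun z => fderiv ℝ ψ z v / ψ z) S := fun v =>
    (hψv v).div hψ0 hne
  have hη2 : ContDiff ℝ 1 (fun z => η z ^ 2) := hη.pow 2
  have hc2 : HasCompactSupport (fun z => η z ^ 2) :=
    hc.comp_left (g := fun t : ℝ => t ^ 2) (by norm_num)
  have hs2 : tsupport (fun z => η z ^ 2) ⊆ S := by
    refine Subset.trans ?_ hs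
    refine closure_mono fun z hz => ?_
    simp only [Function.mem_support] at hz ⊢
    intro h
    exact hz (by rw [h]; norm_num)
  have hdη : ∀ v z, fderiv ℝ (fun z => η z ^ 2) z v = 2 * η z * fderiv ℝ η z v := by
    intro v z
    have h1 : HasFDerivAt η (fderiv ℝ η z) z := (hη.differentiable one_ne_zero z).hasFDerivAt
    have h2 := h1.pow 2
    rw [h2.fderiv]
    simp only [Nat.add_one_sub_one, pow_one, nsmul_eq_mul, Nat.cast_ofNat, smul_apply,
      smul_eq_mul]
  have hdW : ∀ v, ∀ z ∈ S, fderiv ℝ (fun z => fderiv ℝ ψ z v / ψ z) z v =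
      fderiv ℝ (fun z => fderiv ℝ ψ z v) z v / ψ z - fderiv ℝ ψ z v ^ 2 / ψ z ^ 2 := by
    intro v z hz
    have h1 : HasFDerivAt (fun z => fderiv ℝ ψ z v) (fderiv ℝ (fun z => fderiv ℝ ψ z v) z) z :=
      (((hψv v).differentiableOn one_ne_zero).differentiableAt (hS.mem_nhds hz)).hasFDerivAt
    have h2 : HasFDerivAt ψ (fderiv ℝ ψ z) z :=
      ((hψ0.differentiableOn one_ne_zero).differentiableAt (hS.mem_nhds hz)).hasFDerivAt
    have h3 : HasFDerivAt (fun z => (ψ z)⁻¹) (-(ψ z ^ 2)⁻¹ • fderiv ℝ ψ z) z :=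
      (hasDerivAt_inv (hne z hz)).comp_hasFDerivAt z h2
    have h4 := h1.mul h3
    have h5 : (fun z => fderiv ℝ ψ z v / ψ z) =
        (fun z => fderiv ℝ ψ z v) * fun z => (ψ z)⁻¹ := by
      funext z; simp only [Pi.mul_apply]; rw [div_eq_mul_inv]
    rw [h5, h4.fderiv]
    have := hne z hz
    simp only [_root_.add_apply, _root_.smul_apply, smul_eq_mul]
    field_simp
    ring
  have key : ∀ v : ℂ, ∫ z, η z ^ 2 * fderiv ℝ (fun z => fderiv ℝ ψ z v / ψ z) z v =
      - ∫ z, 2 * η z * fderiv ℝ η z v * (fderiv ℝ ψ z v / ψ z) := by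
    intro v
    rw [Loc.ibp hS hη2 hc2 hs2 (hW v) v]
    congr 1
    refine integral_congr_ae (Eventually.of_forall fun z => ?_)
    simp only [hdη]
  have hX : Integrable (fun z => η z ^ 2 * (gsq ψ z / ψ z ^ 2)) := by
    refine Loc.int_mul hS hη2.continuous hc2 hs2 ?_
    exact ((((hψv 1).continuousOn.pow 2).add ((hψv Complex.I).continuousOn.pow 2))).div
      (hψ0.continuousOn.pow 2) fun z hz => pow_ne_zero _ (hne z hz)
  have hY : Integrable (fun z => η z ^ 2 * (lap ψ z / ψ z)) := by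
    refine Loc.int_mul hS hη2.continuous hc2 hs2 ?_
    refine ContinuousOn.div (ContinuousOn.add ?_ ?_) hψ0.continuousOn hne
    · exact ((hψv 1).continuousOn_fderiv_of_isOpen hS le_rfl).clm_apply continuousOn_const
    · exact ((hψv Complex.I).continuousOn_fderiv_of_isOpen hS le_rfl).clm_apply
        continuousOn_const
  have hE : Integrable (gsq η) := by
    have h1 : ∀ v : ℂ, Integrable (fun z => fderiv ℝ η z v ^ 2) := by
      intro v
      refine Continuous.integrable_of_hasCompactSupport ?_ ?_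
      · exact ((hη.continuous_fderiv one_ne_zero).clm_apply continuous_const).pow 2
      · exact (hc.fderiv (𝕜 := ℝ)).comp_left (g := fun L : ℂ →L[ℝ] ℝ => L v ^ 2) (by simp)
    exact (h1 1).add (h1 Complex.I)
  have hC : ∀ v : ℂ, Integrable (fun z => 2 * η z * fderiv ℝ η z v * (fderiv ℝ ψ z v / ψ z)) := by
    intro v
    have h1 : Integrable (fun z => η z * (2 * fderiv ℝ η z v * (fderiv ℝ ψ z v / ψ z))) := by
      refine Loc.int_mul hS hη.continuous hc hs ?_
      exact (continuousOn_const.mul (((hη.continuous_fderiv one_ne_zero).clm_apply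
        continuous_const).continuousOn)).mul (hW v).continuousOn
    refine h1.congr (Eventually.of_forall fun z => ?_)
    simp only
    ring
  have hL : ∀ v : ℂ, Integrable
      (fun z => η z ^ 2 * fderiv ℝ (fun z => fderiv ℝ ψ z v / ψ z) z v) := by
    intro v
    refine Loc.int_mul hS hη2.continuous hc2 hs2 ?_
    exact ((hW v).continuousOn_fderiv_of_isOpen hS le_rfl).clm_apply continuousOn_const
  have hle1 : ∫ z, η z ^ 2 * (gsq ψ z / ψ z ^ 2) =
      ∫ z, (η z ^ 2 * (lap ψ z / ψ z) -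
        (η z ^ 2 * fderiv ℝ (fun z => fderiv ℝ ψ z 1 / ψ z) z 1 +
        η z ^ 2 * fderiv ℝ (fun z => fderiv ℝ ψ z Complex.I / ψ z) z Complex.I)) := by
    refine integral_congr_ae (Eventually.of_forall fun z => ?_)
    simp only
    by_cases hz : z ∈ S
    · rw [hdW 1 z hz, hdW Complex.I z hz]
      unfold gsq lap px py
      ring
    · have h1 : η z = 0 := by
        by_contra h
        exact hz (hs (subset_tsupport _ h))
      simp [h1]
  have hle2 : ∫ z, (2 * η z * fderiv ℝ η z 1 * (fderiv ℝ ψ z 1 / ψ z) +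
        2 * η z * fderiv ℝ η z Complex.I * (fderiv ℝ ψ z Complex.I / ψ z)) ≤
      ∫ z, ((1 / 6) * (η z ^ 2 * (gsq ψ z / ψ z ^ 2)) + 6 * gsq η z) := by
    refine integral_mono ((hC 1).add (hC Complex.I)) ((hX.const_mul _).add (hE.const_mul _))
      fun z => ?_
    simp only [gsq, px, py]
    rw [add_div, ← div_pow, ← div_pow]
    nlinarith only [sq_nonneg (η z * (fderiv ℝ ψ z 1 / ψ z) - 6 * fderiv ℝ η z 1),
      sq_nonneg (η z * (fderiv ℝ ψ z Complex.I / ψ z) - 6 * fderiv ℝ η z Complex.I)]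
  have hL2 : Integrable (fun z =>
      η z ^ 2 * fderiv ℝ (fun z => fderiv ℝ ψ z 1 / ψ z) z 1 +
        η z ^ 2 * fderiv ℝ (fun z => fderiv ℝ ψ z Complex.I / ψ z) z Complex.I) :=
    (hL 1).add (hL Complex.I)
  rw [integral_sub hY hL2, integral_add (hL 1) (hL Complex.I), key 1, key Complex.I] at hle1
  rw [integral_add (hC 1) (hC Complex.I), integral_add (hX.const_mul _) (hE.const_mul _),
    integral_const_mul, integral_const_mul] at hle2
  refine ⟨hX, hY, hE, ?_⟩
  linarith

/-- `|y - x|² / R²`. -/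
def tau (x : ℂ) (R : ℝ) (y : ℂ) : ℝ := ((y - x).re ^ 2 + (y - x).im ^ 2) / R ^ 2

theorem tau_eq (x : ℂ) (R : ℝ) (y : ℂ) : tau x R y = ‖y - x‖ ^ 2 / R ^ 2 := by
  unfold tau
  rw [Complex.sq_norm, Complex.normSq_apply]
  ring

theorem tau_nonneg (x : ℂ) (R : ℝ) (y : ℂ) : 0 ≤ tau x R y := by
  unfold tau; positivity

theorem tau_contDiff (x : ℂ) (R : ℝ) {n : WithTop ℕ∞} : ContDiff ℝ n (tau x R) := by
  unfold tau
  have h1 : ContDiff ℝ n (fun y : ℂ => (y - x).re) :=
    Complex.reCLM.contDiff.comp (contDiff_id.sub contDiff_const)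
  have h2 : ContDiff ℝ n (fun y : ℂ => (y - x).im) :=
    Complex.imCLM.contDiff.comp (contDiff_id.sub contDiff_const)
  exact ((h1.pow 2).add (h2.pow 2)).div_const _

theorem re_hasFDerivAt (x y : ℂ) : HasFDerivAt (fun y : ℂ => (y - x).re) Complex.reCLM y :=
  Complex.reCLM.hasFDerivAt.comp y ((hasFDerivAt_id y).sub_const x)

theorem im_hasFDerivAt (x y : ℂ) : HasFDerivAt (fun y : ℂ => (y - x).im) Complex.imCLM y :=
  Complex.imCLM.hasFDerivAt.comp y ((hasFDerivAt_id y).sub_const x)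

theorem tau_hasFDerivAt (x : ℂ) (R : ℝ) (y : ℂ) : HasFDerivAt (tau x R)
    ((2 * (y - x).re / R ^ 2) • Complex.reCLM + (2 * (y - x).im / R ^ 2) • Complex.imCLM) y := by
  have h := (((re_hasFDerivAt x y).pow 2).add ((im_hasFDerivAt x y).pow 2)).mul_const (R ^ 2)⁻¹
  have e : tau x R = fun y => ((y - x).re ^ 2 + (y - x).im ^ 2) * (R ^ 2)⁻¹ := by
    funext y; unfold tau; rw [div_eq_mul_inv]
  rw [e]
  refine h.congr_fderiv ?_
  ext v
  simp
  ring

theorem rad_fderiv {H : ℝ → ℝ} {H' : ℝ} (x : ℂ) (R : ℝ) (y : ℂ)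
    (h : HasDerivAt H H' (tau x R y)) (v : ℂ) :
    fderiv ℝ (fun y => H (tau x R y)) y v =
      H' * (2 * ((y - x).re * v.re + (y - x).im * v.im) / R ^ 2) := by
  have h1 := h.comp_hasFDerivAt y (tau_hasFDerivAt x R y)
  have e : (fun y => H (tau x R y)) = H ∘ tau x R := rfl
  rw [e, h1.fderiv]
  simp
  ring

theorem rad_tsupport {H : ℝ → ℝ} (h0 : ∀ t, 1 ≤ t → H t = 0) (x : ℂ) {R : ℝ} (hR : 0 < R) :
    tsupport (fun y => H (tau x R y)) ⊆ closedBall x R := by
  refine closure_minimal (fun y hy => ?_) isClosed_closedBall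
  by_contra hc
  apply hy
  apply h0
  rw [mem_closedBall, dist_eq_norm, not_le] at hc
  rw [tau_eq, le_div_iff₀ (by positivity)]
  nlinarith [norm_nonneg (y - x)]

theorem rad_cs {H : ℝ → ℝ} (h0 : ∀ t, 1 ≤ t → H t = 0) (x : ℂ) {R : ℝ} (hR : 0 < R) :
    HasCompactSupport (fun y => H (tau x R y)) :=
  (isCompact_closedBall x R).of_isClosed_subset (isClosed_tsupport _) (rad_tsupport h0 x hR)

theorem rad_integrable {H : ℝ → ℝ} (hH : Continuous H) (h0 : ∀ t, 1 ≤ t → H t = 0) (x : ℂ)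
    {R : ℝ} (hR : 0 < R) : Integrable (fun y => H (tau x R y)) :=
  (hH.comp (tau_contDiff x R (n := 0)).continuous).integrable_of_hasCompactSupport
    (rad_cs h0 x hR)

/-- Integral of a radial function. -/
theorem rad_integral {H : ℝ → ℝ} (hH : Continuous H) (h0 : ∀ t, 1 ≤ t → H t = 0) (x : ℂ)
    {R : ℝ} (hR : 0 < R) :
    ∫ y, H (tau x R y) = Real.pi * R ^ 2 * ∫ t in (0 : ℝ)..1, H t := by
  have h1 : ∫ y, H (tau x R y) = ∫ y : ℂ, (fun s : ℝ => H (s ^ 2 / R ^ 2)) ‖y‖ := by
    rw [← integral_sub_right_eq_self (fun y : ℂ => (fun s : ℝ => H (s ^ 2 / R ^ 2)) ‖y‖) x]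
    simp only [tau_eq]
  rw [h1, integral_fun_norm_addHaar volume (fun s : ℝ => H (s ^ 2 / R ^ 2)),
    Complex.finrank_real_complex]
  have h3 : volume.real (ball (0 : ℂ) 1) = Real.pi := by
    simp [Measure.real, Complex.volume_ball]
  rw [h3]
  have h4 : ∫ y in Ioi (0 : ℝ), y ^ (2 - 1) • H (y ^ 2 / R ^ 2) =
      ∫ y in (0 : ℝ)..R, y * H (y ^ 2 / R ^ 2) := by
    rw [intervalIntegral.integral_of_le hR.le]
    rw [setIntegral_eq_of_subset_of_forall_sdiff_eq_zero measurableSet_Ioi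
      (Ioc_subset_Ioi_self : Ioc 0 R ⊆ Ioi 0)]
    · simp
    · intro y hy
      have hy1 : 0 < y := hy.1
      have hy2 : R < y := by
        by_contra h
        exact hy.2 ⟨hy1, not_lt.1 h⟩
      rw [h0, smul_zero]
      rw [le_div_iff₀ (by positivity)]
      nlinarith
  rw [h4]
  have h5 : ∫ y in (0 : ℝ)..R, (H ∘ fun y => y ^ 2 / R ^ 2) y * (2 * y / R ^ 2) =
      ∫ t in ((0 : ℝ) ^ 2 / R ^ 2)..(R ^ 2 / R ^ 2), H t := by
    refine intervalIntegral.integral_comp_mul_deriv (f := fun y => y ^ 2 / R ^ 2) ?_ ?_ hH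
    · intro y _
      have := (hasDerivAt_pow 2 y).div_const (R ^ 2)
      simpa using this
    · fun_prop
  rw [div_self (by positivity), zero_pow two_ne_zero, zero_div] at h5
  rw [← h5]
  have h6 : ∫ y in (0 : ℝ)..R, (H ∘ fun y => y ^ 2 / R ^ 2) y * (2 * y / R ^ 2) =
      2 / R ^ 2 * ∫ y in (0 : ℝ)..R, y * H (y ^ 2 / R ^ 2) := by
    rw [← intervalIntegral.integral_const_mul]
    congr 1
    funext y
    simp only [Function.comp]
    ring
  rw [h6]
  simp only [smul_eq_mul, nsmul_eq_mul]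
  push_cast
  field_simp

/-- `(1 - t)₊`. -/
def qq (t : ℝ) : ℝ := max (1 - t) 0

theorem qq_cont : Continuous qq := by unfold qq; fun_prop

theorem qq_zero {t : ℝ} (h : 1 ≤ t) : qq t = 0 := max_eq_right (by linarith)

theorem qq_eq {t : ℝ} (h : t ≤ 1) : qq t = 1 - t := max_eq_left (by linarith)

theorem qq_nonneg (t : ℝ) : 0 ≤ qq t := le_max_right _ _

theorem qq_sq_hasDerivAt (t : ℝ) : HasDerivAt (fun t => qq t ^ 2) (-2 * qq t) t := by
  have h1 : ∀ t, qq t ^ 2 = ∫ s in t..1, 2 * qq s := by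
    intro t
    rcases le_total t 1 with h | h
    · rw [intervalIntegral.integral_congr (g := fun s => 2 * (1 - s))]
      · rw [qq_eq h, intervalIntegral.integral_const_mul,
          intervalIntegral.integral_sub (by simp) (by simp)]
        simp
        ring
      · intro s hs
        rw [uIcc_of_le h] at hs
        simp only [qq_eq hs.2]
    · rw [intervalIntegral.integral_congr (g := fun _ => 0)]
      · simp [qq_zero h]
      · intro s hs
        rw [uIcc_of_ge h] at hs
        simp only [qq_zero hs.1, mul_zero]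
  have hc : Continuous fun s => 2 * qq s := continuous_const.mul qq_cont
  have h2 := intervalIntegral.integral_hasDerivAt_left (hc.intervalIntegrable t 1)
    (hc.stronglyMeasurableAtFilter _ _) hc.continuousAt
  have e : (fun t => qq t ^ 2) = fun t => ∫ s in t..1, 2 * qq s := funext h1
  rw [e]
  simpa using h2

theorem contDiff_of_hasDerivAt {H g : ℝ → ℝ} (h : ∀ t, HasDerivAt H (g t) t)
    (hg : Continuous g) : ContDiff ℝ 1 H := by
  rw [contDiff_one_iff_deriv]
  refine ⟨fun t => (h t).differentiableAt, ?_⟩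
  have : deriv H = g := funext fun t => (h t).deriv
  rwa [this]

/-- The cut-off `(1 - |y - x|²/R²)₊²`. -/
def cut (x : ℂ) (R : ℝ) (y : ℂ) : ℝ := qq (tau x R y) ^ 2

theorem cut_contDiff (x : ℂ) (R : ℝ) : ContDiff ℝ 1 (cut x R) :=
  (contDiff_of_hasDerivAt qq_sq_hasDerivAt (continuous_const.mul qq_cont)).comp (tau_contDiff x R)

theorem cut_tsupport (x : ℂ) {R : ℝ} (hR : 0 < R) : tsupport (cut x R) ⊆ closedBall x R :=
  rad_tsupport (H := fun t => qq t ^ 2) (fun t ht => by simp [qq_zero ht]) x hR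

theorem cut_cs (x : ℂ) {R : ℝ} (hR : 0 < R) : HasCompactSupport (cut x R) :=
  rad_cs (H := fun t => qq t ^ 2) (fun t ht => by simp [qq_zero ht]) x hR

theorem cut_fderiv (x : ℂ) (R : ℝ) (y v : ℂ) : fderiv ℝ (cut x R) y v =
    -2 * qq (tau x R y) * (2 * ((y - x).re * v.re + (y - x).im * v.im) / R ^ 2) :=
  rad_fderiv x R y (qq_sq_hasDerivAt _) v

theorem poly_int (j k : ℕ) (x : ℂ) {R : ℝ} (hR : 0 < R) :
    Integrable (fun y => tau x R y ^ j * qq (tau x R y) ^ (k + 1)) ∧
    ∫ y, tau x R y ^ j * qq (tau x R y) ^ (k + 1) =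
      Real.pi * R ^ 2 * ∫ t in (0 : ℝ)..1, t ^ j * (1 - t) ^ (k + 1) := by
  have hc : Continuous fun t : ℝ => t ^ j * qq t ^ (k + 1) :=
    (continuous_pow j).mul (qq_cont.pow _)
  have h0 : ∀ t : ℝ, 1 ≤ t → t ^ j * qq t ^ (k + 1) = 0 := fun t ht => by simp [qq_zero ht]
  refine ⟨rad_integrable hc h0 x hR, ?_⟩
  rw [rad_integral hc h0 x hR]
  congr 1
  refine intervalIntegral.integral_congr fun t ht => ?_
  rw [uIcc_of_le zero_le_one] at ht
  simp only [qq_eq ht.2]

theorem int_poly (a0 a1 a2 a3 a4 a5 : ℝ) :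
    ∫ t in (0 : ℝ)..1, (a0 + a1 * t + a2 * t ^ 2 + a3 * t ^ 3 + a4 * t ^ 4 + a5 * t ^ 5) =
      a0 + a1 / 2 + a2 / 3 + a3 / 4 + a4 / 5 + a5 / 6 := by
  have h : ∀ t : ℝ, HasDerivAt (fun t : ℝ => a0 * t + a1 / 2 * t ^ 2 + a2 / 3 * t ^ 3 +
      a3 / 4 * t ^ 4 + a4 / 5 * t ^ 5 + a5 / 6 * t ^ 6)
      (a0 + a1 * t + a2 * t ^ 2 + a3 * t ^ 3 + a4 * t ^ 4 + a5 * t ^ 5) t := by
    intro t
    have := ((((((hasDerivAt_id t).const_mul a0).add
      ((hasDerivAt_pow 2 t).const_mul (a1 / 2))).add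
      ((hasDerivAt_pow 3 t).const_mul (a2 / 3))).add
      ((hasDerivAt_pow 4 t).const_mul (a3 / 4))).add
      ((hasDerivAt_pow 5 t).const_mul (a4 / 5))).add
      ((hasDerivAt_pow 6 t).const_mul (a5 / 6))
    refine this.congr_deriv ?_
    push_cast
    ring
  rw [intervalIntegral.integral_eq_sub_of_hasDerivAt (fun t _ => h t)
    (by apply Continuous.intervalIntegrable; fun_prop)]
  ring

/-- Dirichlet energy of the cut-off. -/
theorem cut_energy (x : ℂ) {R : ℝ} (hR : 0 < R) : ∫ y, gsq (cut x R) y = 4 * Real.pi / 3 := by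
  have h1 : ∀ y, gsq (cut x R) y = 16 / R ^ 2 * (tau x R y ^ 1 * qq (tau x R y) ^ (1 + 1)) := by
    intro y
    unfold gsq px py
    rw [cut_fderiv, cut_fderiv]
    generalize qq (tau x R y) = q
    unfold tau
    simp only [Complex.one_re, Complex.one_im, Complex.I_re, Complex.I_im]
    field_simp
    ring
  simp_rw [h1]
  rw [integral_const_mul, (poly_int 1 1 x hR).2]
  have h2 : ∫ t in (0 : ℝ)..1, t ^ 1 * (1 - t) ^ (1 + 1) = 1 / 12 := by
    rw [intervalIntegral.integral_congr (g := fun t : ℝ =>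
      0 + 1 * t + (-2) * t ^ 2 + 1 * t ^ 3 + 0 * t ^ 4 + 0 * t ^ 5) (fun t _ => by simp only; ring),
      int_poly]
    norm_num
  rw [h2]
  field_simp
  ring

theorem cut_mass (x : ℂ) {R : ℝ} (hR : 0 < R) : ∫ y, cut x R y ^ 2 = Real.pi * R ^ 2 / 5 := by
  have h1 : ∀ y, cut x R y ^ 2 = tau x R y ^ 0 * qq (tau x R y) ^ (3 + 1) := by
    intro y
    unfold cut
    ring
  simp_rw [h1]
  rw [(poly_int 0 3 x hR).2]
  have h2 : ∫ t in (0 : ℝ)..1, t ^ 0 * (1 - t) ^ (3 + 1) = 1 / 5 := by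
    rw [intervalIntegral.integral_congr (g := fun t : ℝ =>
      1 + (-4) * t + 6 * t ^ 2 + (-4) * t ^ 3 + 1 * t ^ 4 + 0 * t ^ 5)
      (fun t _ => by simp only; ring), int_poly]
    norm_num
  rw [h2]
  ring

/-- Mean value inequality for a superharmonic `C²` function and a radial weight. -/
theorem super_mean {V : ℂ → ℝ} {x : ℂ} {r R : ℝ} (hR : 0 < R) (hRr : R < r)
    (hV : ContDiffOn ℝ 2 V (ball x r)) (hlap : ∀ z ∈ ball x r, lap V z ≤ 0)
    {g : ℝ → ℝ} (hg : Continuous g) (hg0 : ∀ t, 0 ≤ g t) (hg1 : ∀ t, 1 ≤ t → g t = 0) :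
    ∫ y, g (tau x R y) * V y ≤ V x * ∫ y, g (tau x R y) := by
  set κ : ℝ := (R + r) / (2 * R) with hκ
  have hκ1 : 1 < κ := by rw [hκ, lt_div_iff₀ (by positivity)]; linarith
  set R' : ℝ := (R + r) / 2 with hR'
  have hR'r : R' < r := by rw [hR']; linarith
  have hκR : κ * R = R' := by rw [hκ, hR']; field_simp
  set T : ℝ → ℂ → ℂ := fun s y => x + s • (y - x) with hT
  have hTc : ∀ s, ContDiff ℝ 2 (T s) := fun s =>
    contDiff_const.add ((contDiff_id.sub contDiff_const).const_smul s)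
  have hTd : ∀ s y, HasFDerivAt (T s) (s • ContinuousLinearMap.id ℝ ℂ) y := fun s y =>
    (((hasFDerivAt_id y).sub_const x).const_smul s).const_add x
  have hTm : ∀ s ∈ Ioo (-κ) κ, ∀ y ∈ closedBall x R, T s y ∈ closedBall x R' := by
    intro s hs y hy
    rw [mem_closedBall, dist_eq_norm] at hy ⊢
    have h1 : |s| ≤ κ := abs_le.2 ⟨hs.1.le, hs.2.le⟩
    simp only [hT, add_sub_cancel_left, norm_smul, Real.norm_eq_abs]
    rw [← hκR]
    exact mul_le_mul h1 hy (norm_nonneg _) (by linarith)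
  have hsub : closedBall x R' ⊆ ball x r := closedBall_subset_ball hR'r
  set G : ℂ → ℝ := fun y => g (tau x R y) with hG
  have hGc : Continuous G := hg.comp (tau_contDiff x R (n := 0)).continuous
  have hGs : tsupport G ⊆ closedBall x R := rad_tsupport hg1 x hR
  have hGk : HasCompactSupport G := rad_cs hg1 x hR
  have hG0 : ∀ y, y ∉ closedBall x R → G y = 0 := fun y hy =>
    image_eq_zero_of_notMem_tsupport fun h => hy (hGs h)
  have hSo : ∀ s, IsOpen (T s ⁻¹' ball x r) := fun s =>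
    isOpen_ball.preimage (hTc s).continuous
  have hSs : ∀ s ∈ Ioo (-κ) κ, closedBall x R ⊆ T s ⁻¹' ball x r := fun s hs y hy =>
    hsub (hTm s hs y hy)
  have hV1 : ContDiffOn ℝ 1 (fderiv ℝ V) (ball x r) := hV.fderiv_of_isOpen isOpen_ball (by norm_num)
  have hVv : ∀ v : ℂ, ContDiffOn ℝ 1 (fun z => fderiv ℝ V z v) (ball x r) := fun v =>
    hV1.clm_apply contDiffOn_const
  obtain ⟨C, hC⟩ := (isCompact_closedBall x R').exists_bound_of_continuousOn
    (hV1.continuousOn.mono hsub)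
  -- derivative in the scale
  have hder : ∀ s ∈ Ioo (-κ) κ, HasDerivAt (fun s => ∫ y, G y * V (T s y))
      (∫ y, G y * fderiv ℝ V (T s y) (y - x)) s := by
    intro s hs
    have hF : ∀ s ∈ Ioo (-κ) κ, Integrable (fun y => G y * V (T s y)) := fun s hs =>
      Loc.int_mul (hSo s) hGc hGk (hGs.trans (hSs s hs))
        (hV.continuousOn.comp (hTc s).continuous.continuousOn fun y hy => hy)
    have hF' : Integrable (fun y => G y * fderiv ℝ V (T s y) (y - x)) :=
      Loc.int_mul (hSo s) hGc hGk (hGs.trans (hSs s hs))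
        ((hV1.continuousOn.comp (hTc s).continuous.continuousOn fun y hy => hy).clm_apply
          (by fun_prop))
    refine (hasDerivAt_integral_of_dominated_loc_of_deriv_le (isOpen_Ioo.mem_nhds hs)
      (F := fun s y => G y * V (T s y)) (F' := fun s y => G y * fderiv ℝ V (T s y) (y - x))
      (bound := fun y => G y * (C * R)) ?_ (hF s hs) hF'.aestronglyMeasurable ?_ ?_ ?_).2
    · filter_upwards [isOpen_Ioo.mem_nhds hs] with s hs using (hF s hs).aestronglyMeasurable
    · refine Eventually.of_forall fun y s hs => ?_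
      by_cases hy : y ∈ closedBall x R
      · rw [norm_mul, Real.norm_of_nonneg (hg0 _)]
        refine mul_le_mul_of_nonneg_left ?_ (hg0 _)
        refine (ContinuousLinearMap.le_opNorm _ _).trans ?_
        have h1 := hC _ (hTm s hs y hy)
        rw [mem_closedBall, dist_eq_norm] at hy
        exact mul_le_mul h1 hy (norm_nonneg _) ((norm_nonneg _).trans h1)
      · simp [hG0 y hy]
    · exact (hGc.integrable_of_hasCompactSupport hGk).mul_const _
    · refine Eventually.of_forall fun y s hs => ?_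
      by_cases hy : y ∈ closedBall x R
      · have h1 : HasFDerivAt V (fderiv ℝ V (T s y)) (T s y) :=
          ((hV.differentiableOn two_ne_zero).differentiableAt
            (isOpen_ball.mem_nhds (hSs s hs hy))).hasFDerivAt
        have h2 : HasDerivAt (fun s : ℝ => T s y) (y - x) s := by
          have := ((hasDerivAt_id s).smul_const (y - x)).const_add x
          rw [one_smul] at this
          exact this
        exact (h1.comp_hasDerivAt s h2).const_mul (G y)
      · simpa [hG0 y hy] using hasDerivAt_const s (0 : ℝ)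
  -- the potential of the weight
  set Θ : ℝ → ℝ := fun t => R ^ 2 / 2 * ∫ s in (1 : ℝ)..t, g s with hΘ
  have hΘd : ∀ t, HasDerivAt Θ (R ^ 2 / 2 * g t) t := fun t =>
    (intervalIntegral.integral_hasDerivAt_right (hg.intervalIntegrable 1 t)
      (hg.stronglyMeasurableAtFilter _ _) hg.continuousAt).const_mul _
  have hΘ1 : ∀ t, 1 ≤ t → Θ t = 0 := by
    intro t ht
    simp only [hΘ]
    rw [intervalIntegral.integral_congr (g := fun _ => 0)]
    · simp
    · intro s hs
      rw [uIcc_of_le ht] at hs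
      exact hg1 s hs.1
  have hΘn : ∀ t, Θ t ≤ 0 := by
    intro t
    rcases le_total t 1 with h | h
    · simp only [hΘ]
      rw [intervalIntegral.integral_symm]
      have := intervalIntegral.integral_nonneg (f := g) (μ := volume) h fun s _ => hg0 s
      nlinarith [sq_nonneg R]
    · exact (hΘ1 t h).le
  have hΘc : ContDiff ℝ 1 (fun y => Θ (tau x R y)) :=
    (contDiff_of_hasDerivAt hΘd (continuous_const.mul hg)).comp (tau_contDiff x R)
  have hΘv : ∀ y v, fderiv ℝ (fun y => Θ (tau x R y)) y v =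
      G y * ((y - x).re * v.re + (y - x).im * v.im) := by
    intro y v
    rw [rad_fderiv x R y (hΘd _) v]
    simp only [hG]
    field_simp
  have hneg : ∀ s ∈ Ioo (0 : ℝ) 1, ∫ y, G y * fderiv ℝ V (T s y) (y - x) ≤ 0 := by
    intro s hs
    have hs' : s ∈ Ioo (-κ) κ := ⟨by linarith [hs.1], by linarith [hs.2]⟩
    have hA : ∀ v : ℂ, ContDiffOn ℝ 1 (fun y => fderiv ℝ V (T s y) v) (T s ⁻¹' ball x r) :=
      fun v => (hVv v).comp ((hTc s).of_le (by norm_num)).contDiffOn fun y hy => hy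
    have hsup := (rad_tsupport hΘ1 x hR).trans (hSs s hs')
    have key := fun v => Loc.ibp (hSo s) hΘc (rad_cs hΘ1 x hR) hsup (hA v) v
    have hI : ∀ v : ℂ, Integrable (fun y => Θ (tau x R y) *
        fderiv ℝ (fun y => fderiv ℝ V (T s y) v) y v) := fun v =>
      Loc.int_mul (hSo s) hΘc.continuous (rad_cs hΘ1 x hR) hsup
        (((hA v).continuousOn_fderiv_of_isOpen (hSo s) le_rfl).clm_apply continuousOn_const)
    have hJ : ∀ v : ℂ, Integrable (fun y => fderiv ℝ (fun y => Θ (tau x R y)) y v *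
        fderiv ℝ V (T s y) v) := by
      intro v
      have h1 : Integrable (fun y => G y * (((y - x).re * v.re + (y - x).im * v.im) *
          fderiv ℝ V (T s y) v)) :=
        Loc.int_mul (hSo s) hGc hGk (hGs.trans (hSs s hs'))
          (ContinuousOn.mul (by fun_prop) (hA v).continuousOn)
      refine h1.congr (Eventually.of_forall fun y => ?_)
      simp only [hΘv]
      ring
    have e1 : ∫ y, G y * fderiv ℝ V (T s y) (y - x) =
        (∫ y, fderiv ℝ (fun y => Θ (tau x R y)) y 1 * fderiv ℝ V (T s y) 1) +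
        ∫ y, fderiv ℝ (fun y => Θ (tau x R y)) y Complex.I * fderiv ℝ V (T s y) Complex.I := by
      rw [← integral_add (hJ 1) (hJ Complex.I)]
      refine integral_congr_ae (Eventually.of_forall fun y => ?_)
      simp only [hΘv]
      have h1 : y - x = (y - x).re • (1 : ℂ) + (y - x).im • Complex.I := by
        apply Complex.ext <;> simp
      have h2 : fderiv ℝ V (T s y) (y - x) = (y - x).re * fderiv ℝ V (T s y) 1 +
          (y - x).im * fderiv ℝ V (T s y) Complex.I := by
        conv_lhs => rw [h1]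
        rw [map_add, map_smul, map_smul, smul_eq_mul, smul_eq_mul]
      rw [h2]
      simp only [Complex.one_re, Complex.one_im, Complex.I_re, Complex.I_im]
      ring
    have e2 : 0 ≤ (∫ y, Θ (tau x R y) * fderiv ℝ (fun y => fderiv ℝ V (T s y) 1) y 1) +
        ∫ y, Θ (tau x R y) * fderiv ℝ (fun y => fderiv ℝ V (T s y) Complex.I) y Complex.I := by
      rw [← integral_add (hI 1) (hI Complex.I)]
      refine integral_nonneg fun y => ?_
      by_cases hy : y ∈ T s ⁻¹' ball x r
      · have h3 : ∀ v : ℂ, fderiv ℝ (fun y => fderiv ℝ V (T s y) v) y v =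
            s * fderiv ℝ (fun z => fderiv ℝ V z v) (T s y) v := by
          intro v
          have h4 := (((hVv v).differentiableOn one_ne_zero).differentiableAt
            (isOpen_ball.mem_nhds hy)).hasFDerivAt.comp y (hTd s y)
          have e : (fun y => fderiv ℝ V (T s y) v) = (fun z => fderiv ℝ V z v) ∘ T s := rfl
          rw [e, h4.fderiv]
          simp
        simp only [h3, Pi.zero_apply]
        have h5 := hlap _ hy
        unfold lap px py at h5
        have h6 := mul_nonneg_of_nonpos_of_nonpos (hΘn (tau x R y))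
          (mul_nonpos_of_nonneg_of_nonpos hs.1.le h5)
        linarith
      · have h7 : Θ (tau x R y) = 0 :=
          image_eq_zero_of_notMem_tsupport (f := fun y => Θ (tau x R y)) fun h => hy (hsup h)
        simp [h7]
    rw [key 1, key Complex.I] at e2
    linarith
  have hIcc : Icc (0 : ℝ) 1 ⊆ Ioo (-κ) κ := fun s hs => ⟨by linarith [hs.1], by linarith [hs.2]⟩
  obtain ⟨c, hc, hc'⟩ := exists_hasDerivAt_eq_slope (fun s => ∫ y, G y * V (T s y))
    (fun s => ∫ y, G y * fderiv ℝ V (T s y) (y - x)) zero_lt_one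
    (fun s hs => (hder s (hIcc hs)).continuousAt.continuousWithinAt)
    (fun s hs => hder s (hIcc (Ioo_subset_Icc_self hs)))
  have h8 := hneg c hc
  rw [hc'] at h8
  simp only [hT, one_smul, add_sub_cancel, zero_smul, add_zero, sub_zero, div_one] at h8
  rw [integral_mul_const] at h8
  linarith

end Vale.Agent.P071.Quant
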