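import Vale.Agent.P071.H592.Hot2
import Vale.Agent.P071.H969.Final
import Vale.Agent.P071.H969.EmbDef
import Vale.Agent.N071.Calc
import Mathlib.Analysis.Complex.ExponentialBounds

/-!
# P071, quantitative hot spots: the estimate
-/

open MeasureTheory Set Metric Filter Topology

noncomputable section

namespace Vale.Agent.P071.Quant

open Lim

theorem int_eq {Ω : Set ℂ} {φ F : ℂ → ℝ} (hs : tsupport φ ⊆ Ω)
    (h : ∀ z, z ∉ tsupport φ → F z = 0) : ∫ z in Ω, F z = ∫ z, F z :=
  setIntegral_eq_integral_of_forall_compl_eq_zero fun z hz => h z fun h' => hz (hs h')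

theorem gsq_zero {φ : ℂ → ℝ} {z : ℂ} (hz : z ∉ tsupport φ) : gsq φ z = 0 := by
  have h0 : fderiv ℝ φ z = 0 := by
    by_contra h2
    exact hz (support_fderiv_subset ℝ h2)
  unfold gsq px py
  rw [h0]
  simp

/-- The Rayleigh quotient of a `C¹` test function of mean zero. -/
theorem rayleigh {Ω : Set ℂ} (ho : IsOpen Ω) {φ : ℂ → ℝ} (h1 : ContDiff ℝ 1 φ)
    (hc : HasCompactSupport φ) (hs : tsupport φ ⊆ Ω) (h0 : ∫ z, φ z = 0) :
    muOne Ω * ∫ z, φ z ^ 2 ≤ ∫ z, gsq φ z := by
  have hcf : Continuous (fderiv ℝ φ) := h1.continuous_fderiv (by simp)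
  have hpx : Continuous (px φ) := hcf.clm_apply continuous_const
  have hpy : Continuous (py φ) := hcf.clm_apply continuous_const
  have hH : IsH1 Ω φ (px φ) (py φ) := by
    refine isH1_of_c1 ho h1.contDiffOn ?_ ?_
    · exact (tgt_sq_integrable h1.continuous hc).integrableOn
    · exact ((tgt_sq_integrable hpx (tgt_hcs_px hc)).add
        (tgt_sq_integrable hpy (tgt_hcs_py hc))).integrableOn
  have e0 : ∫ z in Ω, φ z = 0 := by
    rw [int_eq hs fun z hz => image_eq_zero_of_notMem_tsupport hz, h0]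
  have e1 : ∫ z in Ω, φ z ^ 2 = ∫ z, φ z ^ 2 :=
    int_eq hs fun z hz => by rw [image_eq_zero_of_notMem_tsupport hz]; norm_num
  have e2 : ∫ z in Ω, (px φ z ^ 2 + py φ z ^ 2) = ∫ z, gsq φ z :=
    int_eq hs fun z hz => gsq_zero hz
  have hn : 0 ≤ ∫ z, φ z ^ 2 := integral_nonneg fun z => sq_nonneg _
  rcases hn.eq_or_lt with h | h
  · rw [← h, mul_zero]
    exact integral_nonneg fun z => add_nonneg (sq_nonneg _) (sq_nonneg _)
  · rw [← le_div_iff₀ h]
    refine csInf_le ⟨0, ?_⟩ ⟨φ, px φ, py φ, hH, e0, by rwa [e1], by rw [e1, e2]⟩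
    rintro q ⟨v, gx, gy, -, -, hv, rfl⟩
    exact div_nonneg (integral_nonneg fun z => add_nonneg (sq_nonneg _) (sq_nonneg _)) hv.le

/-- `μ₁(Ω) R² ≤ 16` for every closed disc of radius `R` in `Ω`. -/
theorem mu_ball {Ω : Set ℂ} (ho : IsOpen Ω) {x : ℂ} {R : ℝ} (hR : 0 < R)
    (hB : closedBall x R ⊆ Ω) : muOne Ω * R ^ 2 ≤ 16 := by
  have key : ∀ L : ℂ →L[ℝ] ℝ, Integrable (fun y => (L (y - x) * cut x R y) ^ 2) ∧
      Integrable (gsq fun y => L (y - x) * cut x R y) ∧
      muOne Ω * ∫ y, (L (y - x) * cut x R y) ^ 2 ≤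
      ∫ y, gsq (fun y => L (y - x) * cut x R y) y := by
    intro L
    have h1 : ContDiff ℝ 1 (fun y => L (y - x) * cut x R y) :=
      (L.contDiff.comp (contDiff_id.sub contDiff_const)).mul (cut_contDiff x R)
    have hc : HasCompactSupport (fun y => L (y - x) * cut x R y) := (cut_cs x hR).mul_left
    have hcf : Continuous (fderiv ℝ fun y => L (y - x) * cut x R y) :=
      h1.continuous_fderiv (by simp)
    refine ⟨tgt_sq_integrable h1.continuous hc,
      (tgt_sq_integrable (hcf.clm_apply continuous_const) (tgt_hcs_px hc)).add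
        (tgt_sq_integrable (hcf.clm_apply continuous_const) (tgt_hcs_py hc)),
      rayleigh ho h1 hc ((tsupport_mul_subset_right).trans ((cut_tsupport x hR).trans hB)) ?_⟩
    have h2 := integral_sub_left_eq_self (fun y => L (y - x) * cut x R y) volume (2 * x)
    have h3 : ∀ y, L (2 * x - y - x) * cut x R (2 * x - y) = -(L (y - x) * cut x R y) := by
      intro y
      have e : 2 * x - y - x = -(y - x) := by ring
      have e2 : cut x R (2 * x - y) = cut x R y := by
        unfold cut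
        rw [tau_eq, tau_eq, e, norm_neg]
      rw [e, e2, map_neg, neg_mul]
    simp only [h3, integral_neg] at h2
    linarith
  obtain ⟨a1, a2, a3⟩ := key Complex.reCLM
  obtain ⟨b1, b2, b3⟩ := key Complex.imCLM
  have hd : ∀ (L : ℂ →L[ℝ] ℝ) y v, fderiv ℝ (fun y => L (y - x) * cut x R y) y v =
      L v * cut x R y + L (y - x) * fderiv ℝ (cut x R) y v := by
    intro L y v
    have h1 : HasFDerivAt (fun y => L (y - x)) L y :=
      L.hasFDerivAt.comp y ((hasFDerivAt_id y).sub_const x)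
    have h2 := h1.fun_mul ((cut_contDiff x R).differentiable one_ne_zero y).hasFDerivAt
    rw [h2.fderiv]
    simp only [_root_.add_apply, _root_.smul_apply, smul_eq_mul]
    ring
  have e1 : (∫ y, (Complex.reCLM (y - x) * cut x R y) ^ 2) +
      ∫ y, (Complex.imCLM (y - x) * cut x R y) ^ 2 = Real.pi * R ^ 2 * R ^ 2 / 30 := by
    rw [← integral_add a1 b1]
    have h1 : ∀ y, (Complex.reCLM (y - x) * cut x R y) ^ 2 +
        (Complex.imCLM (y - x) * cut x R y) ^ 2 =
        R ^ 2 * (tau x R y ^ 1 * qq (tau x R y) ^ (3 + 1)) := by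
      intro y
      unfold cut
      generalize qq (tau x R y) = q
      unfold tau
      simp only [Complex.reCLM_apply, Complex.imCLM_apply]
      field_simp
      ring
    simp_rw [h1]
    rw [integral_const_mul, (poly_int 1 3 x hR).2]
    have h2 : ∫ t in (0 : ℝ)..1, t ^ 1 * (1 - t) ^ (3 + 1) = 1 / 30 := by
      rw [intervalIntegral.integral_congr (g := fun t : ℝ =>
        0 + 1 * t + (-4) * t ^ 2 + 6 * t ^ 3 + (-4) * t ^ 4 + 1 * t ^ 5)
        (fun t _ => by simp only; ring), int_poly]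
      norm_num
    rw [h2]
    ring
  have e2 : (∫ y, gsq (fun y => Complex.reCLM (y - x) * cut x R y) y) +
      ∫ y, gsq (fun y => Complex.imCLM (y - x) * cut x R y) y = Real.pi * R ^ 2 * (8 / 15) := by
    rw [← integral_add a2 b2]
    have h1 : ∀ y, gsq (fun y => Complex.reCLM (y - x) * cut x R y) y +
        gsq (fun y => Complex.imCLM (y - x) * cut x R y) y =
        (fun t => 2 * qq t ^ 4 - 8 * t * qq t ^ 3 + 16 * t ^ 2 * qq t ^ 2) (tau x R y) := by
      intro y
      unfold gsq px py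
      simp only [hd, cut_fderiv]
      unfold cut
      generalize qq (tau x R y) = q
      unfold tau
      simp only [Complex.reCLM_apply, Complex.imCLM_apply, Complex.one_re, Complex.one_im,
        Complex.I_re, Complex.I_im]
      field_simp
      ring
    rw [integral_congr_ae (Eventually.of_forall h1), rad_integral
      (H := fun t => 2 * qq t ^ 4 - 8 * t * qq t ^ 3 + 16 * t ^ 2 * qq t ^ 2)
      (by have := qq_cont; fun_prop) (fun t ht => by simp [qq_zero ht]) x hR]
    congr 1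
    rw [intervalIntegral.integral_congr (g := fun t : ℝ =>
      2 + (-16) * t + 52 * t ^ 2 + (-64) * t ^ 3 + 26 * t ^ 4 + 0 * t ^ 5), int_poly]
    · norm_num
    · intro t ht
      rw [uIcc_of_le zero_le_one] at ht
      simp only [qq_eq ht.2]
      ring
  have h4 : muOne Ω * (Real.pi * R ^ 2 * R ^ 2 / 30) ≤ Real.pi * R ^ 2 * (8 / 15) := by
    rw [← e1, ← e2, mul_add]
    linarith
  have hp : 0 < Real.pi * R ^ 2 := by positivity
  by_contra hcon
  have h5 := mul_lt_mul_of_pos_left (not_le.1 hcon) hp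
  nlinarith

theorem px_const_sub (c : ℝ) (u : ℂ → ℝ) : px (fun z => c - u z) = fun z => -px u z := by
  funext z
  unfold px
  rw [fderiv_const_sub]
  simp

theorem py_const_sub (c : ℝ) (u : ℂ → ℝ) : py (fun z => c - u z) = fun z => -py u z := by
  funext z
  unfold py
  rw [fderiv_const_sub]
  simp

theorem gsq_const_sub (c : ℝ) (u : ℂ → ℝ) (z : ℂ) : gsq (fun z => c - u z) z = gsq u z := by
  unfold gsq
  rw [px_const_sub, py_const_sub]
  ring

theorem lap_const_sub (c : ℝ) (u : ℂ → ℝ) (z : ℂ) :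
    Lim.lap (fun z => c - u z) z = -Lim.lap u z := by
  unfold Lim.lap
  rw [px_const_sub, py_const_sub]
  unfold px py
  rw [fderiv_fun_neg, fderiv_fun_neg]
  simp only [_root_.neg_apply]
  ring

/-- The logarithmic gradient estimate. -/
theorem log_grad {Ω : Set ℂ} (ho : IsOpen Ω) (hb : Bornology.IsBounded Ω)
    (hs : IsSimplyConnected Ω) (hT : Tight Ω) {u : ℂ → ℝ} (hu : InV Ω u)
    (hc : ContinuousOn u Ω) (h0 : ∃ z ∈ Ω, u z ≠ 0) {η : ℂ → ℝ} (h1 : ContDiff ℝ 1 η)
    (h2 : HasCompactSupport η) (h3 : tsupport η ⊆ Ω) {M : ℝ} (hM : ∀ z ∈ tsupport η, u z < M) :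
    Integrable (fun z => η z ^ 2 * (gsq u z / (M - u z) ^ 2)) ∧
    ∫ z, η z ^ 2 * (gsq u z / (M - u z) ^ 2) ≤ 36 * ∫ z, gsq η z ∧
    muOne Ω * ∫ z, η z ^ 2 * (u z / (M - u z)) ≤ 24 * ∫ z, gsq η z := by
  obtain ⟨hsm, heq⟩ := NC.smooth_of_inV ho hu hc
  obtain ⟨-, -, -, -, hμ⟩ := NC.setup ho hb hs hT
  have hcrit := NC.no_crit ho hb hs hT hu hc h0
  obtain ⟨hWi, hW⟩ := NC.weighted ho hb hs hT hu hc h0 h1 h2 h3
  set μ := muOne Ω
  set S : Set ℂ := Ω ∩ u ⁻¹' Iio M with hS
  have hSo : IsOpen S := hc.isOpen_inter_preimage ho isOpen_Iio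
  have hsS : tsupport η ⊆ S := fun z hz => ⟨h3 hz, hM z hz⟩
  obtain ⟨hX, hY, hE, hle⟩ := log_cacc (ψ := fun z => M - u z) hSo
    (contDiffOn_const.sub (hsm.mono inter_subset_left)) (fun z hz => sub_pos.2 hz.2) h1 h2 hsS
  simp only [gsq_const_sub, lap_const_sub] at hX hY hle
  have hz0 : ∀ z, z ∉ tsupport η → η z = 0 := fun z hz => image_eq_zero_of_notMem_tsupport hz
  have hWi' : Integrable (fun z => η z ^ 2 * u z ^ 2 / (px u z ^ 2 + py u z ^ 2)) :=
    (integrableOn_iff_integrable_of_support_subset fun z hz => by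
      by_contra h
      exact hz (by simp [hz0 z fun h' => h (h3 h')])).1 hWi
  rw [int_eq h3 fun z hz => by simp [hz0 z hz],
    int_eq (F := fun z => px η z ^ 2 + py η z ^ 2) h3 fun z hz => gsq_zero hz] at hW
  have e1 : ∫ z, η z ^ 2 * (-Lim.lap u z / (M - u z)) = μ * ∫ z, η z ^ 2 * (u z / (M - u z)) := by
    rw [← integral_const_mul]
    refine integral_congr_ae (Eventually.of_forall fun z => ?_)
    by_cases hz : z ∈ tsupport η
    · simp only
      rw [heq z (h3 hz)]
      ring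
    · simp [hz0 z hz]
  have e2 : ∫ z, η z ^ 2 * (-Lim.lap u z / (M - u z)) ≤
      ∫ z, (3 / 4 * μ ^ 2 * (η z ^ 2 * u z ^ 2 / (px u z ^ 2 + py u z ^ 2)) +
        1 / 3 * (η z ^ 2 * (gsq u z / (M - u z) ^ 2))) := by
    refine integral_mono hY ((hWi'.const_mul _).add (hX.const_mul _)) fun z => ?_
    by_cases hz : z ∈ tsupport η
    · simp only
      rw [heq z (h3 hz)]
      have hg : 0 < gsq u z := by
        unfold gsq
        by_contra hcon
        apply hcrit z (h3 hz)
        have a1 : px u z = 0 := by nlinarith [sq_nonneg (px u z), sq_nonneg (py u z)]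
        have a2 : py u z = 0 := by nlinarith [sq_nonneg (px u z), sq_nonneg (py u z)]
        ext v
        have h1 : v = v.re • (1 : ℂ) + v.im • Complex.I := by
          apply Complex.ext <;> simp
        rw [h1, map_add, map_smul, map_smul]
        unfold px at a1
        unfold py at a2
        rw [a1, a2]
        simp
      have hw : 0 < M - u z := sub_pos.2 (hM z hz)
      change _ ≤ 3 / 4 * μ ^ 2 * (η z ^ 2 * u z ^ 2 / gsq u z) + _
      generalize gsq u z = g at hg ⊢
      generalize M - u z = w at hw ⊢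
      have h4 : 3 / 4 * μ ^ 2 * (η z ^ 2 * u z ^ 2 / g) + 1 / 3 * (η z ^ 2 * (g / w ^ 2)) -
          η z ^ 2 * (μ * u z / w) = η z ^ 2 * (3 * μ * u z * w - 2 * g) ^ 2 / (12 * g * w ^ 2) := by
        field_simp
        ring
      have h5 : 0 ≤ η z ^ 2 * (3 * μ * u z * w - 2 * g) ^ 2 / (12 * g * w ^ 2) := by positivity
      linarith
    · simp [hz0 z hz]
  rw [integral_add (hWi'.const_mul _) (hX.const_mul _), integral_const_mul,
    integral_const_mul] at e2
  have e3 : 3 / 4 * μ ^ 2 * ∫ z, η z ^ 2 * u z ^ 2 / (px u z ^ 2 + py u z ^ 2) ≤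
      12 * ∫ z, gsq η z := by
    have := mul_le_mul_of_nonneg_left hW (show 0 ≤ 3 / 4 * μ ^ 2 by positivity)
    refine this.trans (le_of_eq ?_)
    change _ * (_ * ∫ z, gsq η z) = _
    field_simp
    ring
  rw [← e1]
  refine ⟨hX, ?_, ?_⟩ <;> linarith

theorem lap_shift {ψ : ℂ → ℝ} {S : Set ℂ} (hS : IsOpen S) (hψ : ContDiffOn ℝ 2 ψ S) (x : ℂ)
    (R B : ℝ) {z : ℂ} (hz : z ∈ S) :
    Lim.lap (fun y => ψ y - B * tau x R y) z = Lim.lap ψ z - 4 * B / R ^ 2 := by
  have hψ1 : ContDiffOn ℝ 1 (fderiv ℝ ψ) S := hψ.fderiv_of_isOpen hS (by norm_num)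
  have key : ∀ (v : ℂ) (L : ℂ →L[ℝ] ℝ), (∀ w : ℂ, L w = w.re * v.re + w.im * v.im) →
      fderiv ℝ (fun y => fderiv ℝ (fun y => ψ y - B * tau x R y) y v) z v =
      fderiv ℝ (fun y => fderiv ℝ ψ y v) z v - 2 * B / R ^ 2 * L v := by
    intro v L hL
    have h1 : (fun y => fderiv ℝ (fun y => ψ y - B * tau x R y) y v) =ᶠ[𝓝 z]
        fun y => fderiv ℝ ψ y v - 2 * B / R ^ 2 * L (y - x) := by
      filter_upwards [hS.mem_nhds hz] with y hy
      have h2 := ((hψ.differentiableOn two_ne_zero).differentiableAt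
        (hS.mem_nhds hy)).hasFDerivAt.fun_sub ((tau_hasFDerivAt x R y).const_mul B)
      rw [h2.fderiv, hL]
      simp only [_root_.sub_apply, _root_.add_apply, _root_.smul_apply, smul_eq_mul,
        Complex.reCLM_apply, Complex.imCLM_apply]
      ring
    have h3 : HasFDerivAt (fun y => L (y - x)) L z :=
      L.hasFDerivAt.comp z ((hasFDerivAt_id z).sub_const x)
    have h4 := ((((hψ1.clm_apply (contDiffOn_const (c := v))).differentiableOn
      one_ne_zero).differentiableAt (hS.mem_nhds hz)).hasFDerivAt).fun_sub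
      (h3.const_mul (2 * B / R ^ 2))
    rw [h1.fderiv_eq, h4.fderiv]
    simp only [_root_.sub_apply, _root_.smul_apply, smul_eq_mul]
  unfold Lim.lap px py
  rw [key 1 Complex.reCLM (by simp), key Complex.I Complex.imCLM (by simp)]
  simp only [Complex.reCLM_apply, Complex.imCLM_apply, Complex.one_re, Complex.I_im]
  ring

theorem log_lower {A B : ℝ} (hA : 0 < A) (hB : 0 < B) :
    (Real.log ((A + B) / A) - 25 / 12) / B ≤ ∫ t in (0 : ℝ)..1, qq t ^ 4 / (A + B * |t|) := by
  have h1 : ∫ t in (0 : ℝ)..1, 1 / (A + B * t) = Real.log ((A + B) / A) / B := by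
    have h : ∀ t ∈ uIcc (0 : ℝ) 1, HasDerivAt (fun t => Real.log (A + B * t) / B)
        (1 / (A + B * t)) t := by
      intro t ht
      rw [uIcc_of_le zero_le_one] at ht
      have hp : 0 < A + B * t := by have := ht.1; positivity
      have := ((((hasDerivAt_id t).const_mul B).const_add A).log hp.ne').div_const B
      refine this.congr_deriv ?_
      simp only [id]
      field_simp
    rw [intervalIntegral.integral_eq_sub_of_hasDerivAt h, Real.log_div (by positivity) hA.ne']
    · simp only [mul_one, mul_zero, add_zero]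
      ring
    · refine ContinuousOn.intervalIntegrable (continuousOn_const.div (by fun_prop) fun t ht => ?_)
      rw [uIcc_of_le zero_le_one] at ht
      have := ht.1
      positivity
  have hi1 : IntervalIntegrable (fun t : ℝ => 1 / (A + B * t)) volume 0 1 := by
    refine ContinuousOn.intervalIntegrable (continuousOn_const.div (by fun_prop) fun t ht => ?_)
    rw [uIcc_of_le zero_le_one] at ht
    have := ht.1
    positivity
  have hi2 : IntervalIntegrable (fun t : ℝ => (4 + (-6) * t + 4 * t ^ 2 + (-1) * t ^ 3 +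
      0 * t ^ 4 + 0 * t ^ 5) / B) volume 0 1 := by
    apply Continuous.intervalIntegrable
    fun_prop
  have h2 : (Real.log ((A + B) / A) - 25 / 12) / B = ∫ t in (0 : ℝ)..1, (1 / (A + B * t) -
      (4 + (-6) * t + 4 * t ^ 2 + (-1) * t ^ 3 + 0 * t ^ 4 + 0 * t ^ 5) / B) := by
    rw [intervalIntegral.integral_sub hi1 hi2, h1, intervalIntegral.integral_div, int_poly]
    ring
  rw [h2]
  refine intervalIntegral.integral_mono_on zero_le_one (hi1.sub hi2) ?_ fun t ht => ?_
  · apply Continuous.intervalIntegrable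
    exact (qq_cont.pow 4).div (by fun_prop) fun t => by positivity
  · have h0 := ht.1
    have h3 := ht.2
    rw [qq_eq h3, abs_of_nonneg h0]
    have hp : 0 < A + B * t := by positivity
    set P : ℝ := 4 + (-6) * t + 4 * t ^ 2 + (-1) * t ^ 3 + 0 * t ^ 4 + 0 * t ^ 5 with hP
    have hP0 : 0 ≤ P := by
      have : P = (2 - t) * (1 + (1 - t) ^ 2) := by rw [hP]; ring
      rw [this]
      exact mul_nonneg (by linarith) (by positivity)
    have e : (1 - t) ^ 4 / (A + B * t) - (1 / (A + B * t) - P / B) = P * A / (B * (A + B * t)) := by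
      have : (1 - t) ^ 4 = 1 - t * P := by rw [hP]; ring
      rw [this]
      field_simp
      ring
    have : 0 ≤ P * A / (B * (A + B * t)) := by positivity
    linarith

/-- The local estimate. -/
theorem local_est {Ω : Set ℂ} (ho : IsOpen Ω) (hb : Bornology.IsBounded Ω)
    (hs : IsSimplyConnected Ω) (hT : Tight Ω) {u : ℂ → ℝ} (hu : InV Ω u)
    (hc : ContinuousOn u Ω) (h0 : ∃ z ∈ Ω, u z ≠ 0) {x : ℂ} {r M : ℝ} (hr : 0 < r)
    (hB : ball x r ⊆ Ω) (hM : ∀ y ∈ ball x r, u y ≤ M) :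
    u x ≤ (1 - muOne Ω * r ^ 2 / 10 ^ 6) * M := by
  obtain ⟨hsm, heq⟩ := NC.smooth_of_inV ho hu hc
  obtain ⟨-, -, -, -, hμ⟩ := NC.setup ho hb hs hT
  rcases le_or_gt M 0 with hM0 | hM0
  · have h1 := hM x (mem_ball_self hr)
    have h2 : 0 ≤ muOne Ω * r ^ 2 / 10 ^ 6 := by positivity
    nlinarith
  set R : ℝ := r / 2 with hRdef
  have hR : 0 < R := by positivity
  have hRr : R < r := by rw [hRdef]; linarith
  have hcb : closedBall x R ⊆ ball x r := closedBall_subset_ball hRr
  have hμR := mu_ball ho hR (hcb.trans hB)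
  set μ := muOne Ω with hμdef
  refine le_of_forall_pos_le_add fun a ha => ?_
  set ψ : ℂ → ℝ := fun y => M + a - u y with hψdef
  have hψpos : ∀ y ∈ ball x r, 0 < ψ y := fun y hy => by
    have := hM y hy
    simp only [hψdef]
    linarith
  have hψ : ContDiffOn ℝ 2 ψ (ball x r) := contDiffOn_const.sub (hsm.mono hB)
  set A : ℝ := ψ x with hAdef
  have hA : 0 < A := hψpos x (mem_ball_self hr)
  set B : ℝ := μ * M * R ^ 2 / 4 with hBdef
  have hBpos : 0 < B := by positivity
  have hsup : tsupport (cut x R) ⊆ ball x r := (cut_tsupport x hR).trans hcb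
  obtain ⟨-, -, hJ⟩ := log_grad ho hb hs hT hu hc h0 (cut_contDiff x R) (cut_cs x hR)
    (hsup.trans hB) (M := M + a) (fun z hz => by linarith [hM z (hsup hz)])
  rw [cut_energy x hR] at hJ
  -- the mean value inequality
  set g : ℝ → ℝ := fun t => qq t ^ 4 / (A + B * |t|) ^ 2 with hg
  set H : ℝ → ℝ := fun t => qq t ^ 4 / (A + B * |t|) with hH
  have hgc : Continuous g := (qq_cont.pow 4).div (by fun_prop) fun t => by positivity
  have hHc : Continuous H := (qq_cont.pow 4).div (by fun_prop) fun t => by positivity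
  have hg1 : ∀ t, 1 ≤ t → g t = 0 := fun t ht => by simp [hg, qq_zero ht]
  have hH1 : ∀ t, 1 ≤ t → H t = 0 := fun t ht => by simp [hH, qq_zero ht]
  have hmean := super_mean (V := fun y => ψ y - B * tau x R y) hR hRr
    (hψ.sub (contDiffOn_const.mul (tau_contDiff x R).contDiffOn)) (fun z hz => by
      rw [lap_shift isOpen_ball hψ x R B hz, hψdef, lap_const_sub, heq z (hB hz), hBdef]
      have h1 := mul_le_mul_of_nonneg_left (hM z hz) hμ.le
      have h2 : 4 * (μ * M * R ^ 2 / 4) / R ^ 2 = μ * M := by field_simp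
      linarith) hgc (fun t => by positivity) hg1
  have htx : tau x R x = 0 := by simp [tau]
  simp only [htx, mul_zero, sub_zero] at hmean
  have hGc : Continuous fun y => g (tau x R y) := hgc.comp (tau_contDiff x R (n := 0)).continuous
  have hGs := (rad_tsupport hg1 x hR).trans hcb
  have i1 : Integrable (fun y => g (tau x R y) * (ψ y - B * tau x R y)) :=
    Loc.int_mul isOpen_ball hGc (rad_cs hg1 x hR) hGs
      (hψ.continuousOn.sub (continuous_const.mul (tau_contDiff x R (n := 0)).continuous).continuousOn)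
  have i2 := rad_integrable hgc hg1 x hR
  have i3 := rad_integrable hHc hH1 x hR
  have hc2 : Continuous fun y => cut x R y ^ 2 := (cut_contDiff x R).continuous.pow 2
  have hk2 : HasCompactSupport fun y => cut x R y ^ 2 :=
    (cut_cs x hR).comp_left (g := fun t : ℝ => t ^ 2) (by norm_num)
  have hs2 : tsupport (fun y => cut x R y ^ 2) ⊆ ball x r :=
    (rad_tsupport (H := fun t => (qq t ^ 2) ^ 2) (fun t ht => by simp [qq_zero ht]) x hR).trans hcb
  have i4 : Integrable (fun y => cut x R y ^ 2 * (1 / ψ y)) :=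
    Loc.int_mul isOpen_ball hc2 hk2 hs2
      (continuousOn_const.div hψ.continuousOn fun y hy => (hψpos y hy).ne')
  have i5 : Integrable (fun y => cut x R y ^ 2) := hc2.integrable_of_hasCompactSupport hk2
  have hlow : ∫ y, (H (tau x R y) + (A * g (tau x R y) -
      g (tau x R y) * (ψ y - B * tau x R y))) ≤ ∫ y, cut x R y ^ 2 * (1 / ψ y) := by
    refine integral_mono (i3.add ((i2.const_mul A).sub i1)) i4 fun y => ?_
    simp only [hg, hH, cut]
    rw [abs_of_nonneg (tau_nonneg x R y)]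
    by_cases hy : y ∈ ball x r
    · have hw := hψpos y hy
      have ht := tau_nonneg x R y
      generalize ψ y = w at hw ⊢
      generalize qq (tau x R y) = q
      generalize tau x R y = t at ht ⊢
      have hb' : 0 < A + B * t := by positivity
      have e : (q ^ 2) ^ 2 * (1 / w) - (q ^ 4 / (A + B * t) + (A * (q ^ 4 / (A + B * t) ^ 2) -
          q ^ 4 / (A + B * t) ^ 2 * (w - B * t))) =
          q ^ 4 * (A + B * t - w) ^ 2 / (w * (A + B * t) ^ 2) := by
        field_simp
        ring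
      have : 0 ≤ q ^ 4 * (A + B * t - w) ^ 2 / (w * (A + B * t) ^ 2) := by positivity
      linarith
    · have h1 : cut x R y = 0 := image_eq_zero_of_notMem_tsupport fun h => hy (hsup h)
      have h2 : qq (tau x R y) = 0 := pow_eq_zero_iff two_ne_zero |>.1 h1
      simp [h2]
  have i6 : Integrable (fun y => A * g (tau x R y) - g (tau x R y) * (ψ y - B * tau x R y)) :=
    (i2.const_mul A).sub i1
  rw [integral_add i3 i6, integral_sub (i2.const_mul A) i1, integral_const_mul,
    rad_integral hHc hH1 x hR] at hlow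
  have hlog := log_lower hA hBpos
  set I : ℝ := ∫ y, cut x R y ^ 2 * (1 / ψ y) with hI
  have hI0 : 0 ≤ I := by
    refine integral_nonneg fun y => ?_
    by_cases hy : y ∈ ball x r
    · have := hψpos y hy
      simp only [Pi.zero_apply]
      positivity
    · have h1 : cut x R y = 0 := image_eq_zero_of_notMem_tsupport fun h => hy (hsup h)
      simp [h1]
  have hJ' : ∫ z, cut x R z ^ 2 * (u z / (M + a - u z)) = (M + a) * I - Real.pi * R ^ 2 / 5 := by
    rw [← cut_mass x hR, hI, ← integral_const_mul, ← integral_sub (i4.const_mul _) i5]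
    refine integral_congr_ae (Eventually.of_forall fun y => ?_)
    by_cases hy : y ∈ ball x r
    · have hw := (hψpos y hy).ne'
      simp only [hψdef] at hw ⊢
      field_simp
      ring
    · have h1 : cut x R y = 0 := image_eq_zero_of_notMem_tsupport fun h => hy (hsup h)
      simp [h1]
  rw [hJ'] at hJ
  set L : ℝ := Real.log ((A + B) / A) with hL
  have hpi := Real.pi_pos
  have h5 : Real.pi * R ^ 2 * ((L - 25 / 12) / B) ≤ I := by
    have := mul_le_mul_of_nonneg_left hlog (show 0 ≤ Real.pi * R ^ 2 by positivity)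
    linarith
  have h6 : μ * M * (Real.pi * R ^ 2 * ((L - 25 / 12) / B)) = 4 * Real.pi * (L - 25 / 12) := by
    rw [hBdef]
    field_simp
  have h7 : μ * M * I ≤ 176 / 5 * Real.pi := by
    have a1 : 0 ≤ μ * a * I := by positivity
    have a2 := mul_le_mul_of_nonneg_left hμR hpi.le
    nlinarith
  have h8 := mul_le_mul_of_nonneg_left h5 (show 0 ≤ μ * M by positivity)
  have h9 : L ≤ 11 := by nlinarith
  have h10 : (A + B) / A ≤ 62500 := by
    have b1 : (A + B) / A ≤ Real.exp 11 := by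
      rw [← Real.log_le_iff_le_exp (by positivity)]
      exact h9
    have b2 : Real.exp 11 = Real.exp 1 ^ 11 := by rw [← Real.exp_nat_mul]; norm_num
    have b3 : Real.exp 1 ≤ 2.72 := le_trans Real.exp_one_lt_d9.le (by norm_num)
    have b4 : Real.exp 1 ^ 11 ≤ 2.72 ^ 11 := pow_le_pow_left₀ (Real.exp_pos 1).le b3 11
    have b5 : (2.72 : ℝ) ^ 11 ≤ 62500 := by norm_num
    linarith
  rw [div_le_iff₀ hA] at h10
  have h11 : B = μ * r ^ 2 * M / 16 := by rw [hBdef, hRdef]; ring
  have h12 : A = M + a - u x := rfl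
  have h13 : (1 - μ * r ^ 2 / 10 ^ 6) * M = M - B / 62500 := by rw [h11]; ring
  rw [h13]
  linarith

theorem ball_infDist_subset {Ω : Set ℂ} (ho : IsOpen Ω) {x : ℂ} (hx : x ∈ Ω) :
    ball x (infDist x (frontier Ω)) ⊆ Ω := by
  rcases le_or_gt (infDist x (frontier Ω)) 0 with h | h
  · rw [ball_eq_empty.2 h]
    exact empty_subset _
  refine (convex_ball x _).isPreconnected.subset_left_of_subset_union ho
    isClosed_closure.isOpen_compl (disjoint_compl_right_iff_subset.2 subset_closure)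
    (fun y hy => ?_) ⟨x, mem_ball_self h, hx⟩
  have h1 : y ∉ frontier Ω := notMem_of_dist_lt_infDist (mem_ball'.1 hy)
  rw [ho.frontier_eq] at h1
  by_cases h2 : y ∈ Ω
  · exact Or.inl h2
  · exact Or.inr fun h3 => h1 ⟨h3, h2⟩

theorem mean_zero {Ω : Set ℂ} (ho : IsOpen Ω) (hb : Bornology.IsBounded Ω) (hμ : 0 < muOne Ω)
    {u : ℂ → ℝ} (hu : InV Ω u) : IntegrableOn u Ω ∧ ∫ z in Ω, u z = 0 := by
  obtain ⟨gx, gy, hH, hw⟩ := hu
  have : IsFiniteMeasure (volume.restrict Ω) := isFiniteMeasure_restrict.2 hb.measure_lt_top.ne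
  refine ⟨hH.v_mem.integrable (by norm_num), ?_⟩
  have h := hw _ _ _ (NF.isH1_one ho hb)
  simp only [mul_zero, add_zero, integral_zero, mul_one] at h
  exact (mul_eq_zero.1 h.symm).resolve_left hμ.ne'

theorem not_pos {Ω : Set ℂ} (ho : IsOpen Ω) (hne : Ω.Nonempty) {u : ℂ → ℝ}
    (hi : IntegrableOn u Ω) (h0 : ∫ z in Ω, u z = 0) : ¬ ∀ z ∈ Ω, 0 < u z := by
  intro h
  have h1 := (setIntegral_pos_iff_support_of_nonneg_ae (μ := volume) (s := Ω) (f := u)
    ((ae_restrict_iff' ho.measurableSet).2 (Eventually.of_forall fun z hz => (h z hz).le)) hi).2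
    (by
      rw [inter_eq_right.2 (show Ω ⊆ Function.support u from fun z hz => (h z hz).ne')]
      exact ho.measure_pos volume hne)
  exact h1.ne' h0

theorem inV_neg {Ω : Set ℂ} {u : ℂ → ℝ} (hu : InV Ω u) : InV Ω (fun z => -u z) := by
  have := NC.InV.lin hu hu (-1) 0
  simpa using this

/-- Quantitative hot spots. -/
theorem global_est {Ω : Set ℂ} (ho : IsOpen Ω) (hb : Bornology.IsBounded Ω)
    (hs : IsSimplyConnected Ω) (hL : LipschitzBoundary Ω) {u : ℂ → ℝ} (hu : InV Ω u)
    (hc : ContinuousOn u (closure Ω)) (h0 : ∃ z ∈ Ω, u z ≠ 0) :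
    ∃ a ∈ frontier Ω, ∃ b ∈ frontier Ω, (∀ y ∈ frontier Ω, u a ≤ u y ∧ u y ≤ u b) ∧
      u a < 0 ∧ 0 < u b ∧ ∀ x ∈ Ω,
        (1 - muOne Ω * infDist x (frontier Ω) ^ 2 / 10 ^ 6) * u a ≤ u x ∧
        u x ≤ (1 - muOne Ω * infDist x (frontier Ω) ^ 2 / 10 ^ 6) * u b := by
  obtain ⟨a, ha, b, hb', hab, hin⟩ := Lim.hot_spots_of
    (fun _ ho hs hn => RMT.riemann_mapping ho hs hn) (fun _ _ hf => G.disc_thm hf)
    Ω ho hb hs hL u hu hc h0
  have hT := NC.tight_of_or ho hb (Or.inl hL)
  obtain ⟨-, -, -, -, hμ⟩ := NC.setup ho hb hs hT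
  obtain ⟨hi, hm⟩ := mean_zero ho hb hμ hu
  have hne : Ω.Nonempty := h0.imp fun z hz => hz.1
  have hc' := hc.mono subset_closure
  refine ⟨a, ha, b, hb', hab, ?_, ?_, fun x hx => ?_⟩
  · by_contra h
    exact not_pos ho hne hi hm fun z hz => (not_lt.1 h).trans_lt (hin z hz).1
  · by_contra h
    refine not_pos ho hne (u := fun z => -u z) hi.neg (by rw [integral_neg, hm, neg_zero])
      fun z hz => ?_
    linarith [(hin z hz).2, not_lt.1 h]
  · have hB := ball_infDist_subset ho hx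
    have hr : 0 < infDist x (frontier Ω) := by
      refine (isClosed_frontier.notMem_iff_infDist_pos ⟨a, ha⟩).1 fun h => ?_
      rw [ho.frontier_eq] at h
      exact h.2 hx
    constructor
    · have := local_est ho hb hs hT (inV_neg hu) hc'.neg
        (h0.imp fun z hz => ⟨hz.1, neg_ne_zero.2 hz.2⟩) hr hB (M := -u a)
        fun y hy => neg_le_neg (hin y (hB hy)).1.le
      linarith
    · exact local_est ho hb hs hT hu hc' h0 hr hB fun y hy => (hin y (hB hy)).2.le

open NF in
/-- The eigenspace `V(Ω)` is not zero. -/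
theorem exists_inV {Ω : Set ℂ} (ho : IsOpen Ω) (hb : Bornology.IsBounded Ω)
    (hs : IsSimplyConnected Ω) (hT : Tight Ω) :
    ∃ u : ℂ → ℝ, InV Ω u ∧ ∫ z in Ω, u z ^ 2 = 1 := by
  classical
  obtain ⟨-, -, -, -, hμ⟩ := NC.setup ho hb hs hT
  obtain ⟨ι, ⟨N⟩⟩ := exists_NB ho hb hT
  suffices h : ∃ i, N.κ i = muOne Ω by
    obtain ⟨i, hi⟩ := h
    refine ⟨N.e i, N.inV hi, ?_⟩
    have := N.on i i
    rw [if_pos rfl] at this
    rw [← this]
    simp only [sq]
  by_contra hcon
  push Not at hcon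
  obtain ⟨γ, hγ, hgap⟩ := N.gap (muOne Ω)
  have hk : ∀ i, N.κ i ≠ 0 → muOne Ω + γ ≤ N.κ i := fun i hi =>
    hgap i (lt_of_le_of_ne (N.kappa_ge ho hb hi) (hcon i).symm)
  have hon : Orthonormal ℝ fun i => R Ω (Real.sqrt (1 + N.κ i) • N.b i) := by
    rw [orthonormal_iff_ite]
    intro i j
    have hj : 0 < 1 + N.κ j := by linarith [N.nonneg j]
    rw [inner_R, ← T_apply, map_smul, N.res, real_inner_smul_left, real_inner_smul_right,
      real_inner_smul_right, orthonormal_iff_ite.1 N.b.orthonormal]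
    split_ifs with h
    · subst h
      rw [← mul_assoc, Real.mul_self_sqrt hj.le]
      field_simp
    · simp
  have hlow : ∀ q ∈ {q : ℝ | ∃ v gx gy : ℂ → ℝ, IsH1 Ω v gx gy ∧ ∫ z in Ω, v z = 0 ∧
      0 < ∫ z in Ω, v z ^ 2 ∧ q = (∫ z in Ω, (gx z ^ 2 + gy z ^ 2)) / ∫ z in Ω, v z ^ 2},
      muOne Ω + γ ≤ q := by
    rintro q ⟨v, gx, gy, hH, hv0, hv, rfl⟩
    set X : W Ω := ⟨mk3 (tl Ω v) (tl Ω gx) (tl Ω gy), mem_of_isH1 hH⟩ with hX
    have hsq : ∀ {f : ℂ → ℝ}, MemLp f 2 (volume.restrict Ω) →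
        ‖tl Ω f‖ ^ 2 = ∫ z in Ω, f z ^ 2 := by
      intro f hf
      rw [← real_inner_self_eq_norm_sq, inner_tl hf hf]
      simp only [sq]
    have hn : ‖X‖ ^ 2 = (∫ z in Ω, v z ^ 2) + ∫ z in Ω, (gx z ^ 2 + gy z ^ 2) := by
      rw [norm_sq_W, integral_add hH.gx_mem.integrable_sq hH.gy_mem.integrable_sq,
        ← hsq hH.v_mem, ← hsq hH.gx_mem, ← hsq hH.gy_mem, add_assoc]
      rfl
    have hsum := (N.b.hasSum_inner_mul_inner (tl Ω v) (tl Ω v)).mul_left (1 + (muOne Ω + γ))
    have hle : (1 + (muOne Ω + γ)) * inner ℝ (tl Ω v) (tl Ω v) ≤ ‖X‖ ^ 2 := by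
      refine hasSum_le_of_sum_le hsum fun s => le_trans (Finset.sum_le_sum fun i _ => ?_)
        (hon.sum_inner_products_le X (s := s))
      have hi : 0 < 1 + N.κ i := by linarith [N.nonneg i]
      rw [inner_R, real_inner_smul_left, Real.norm_eq_abs, sq_abs, mul_pow, Real.sq_sqrt hi.le,
        real_inner_comm (N.b i) (tl Ω v), ← sq]
      change _ ≤ _ * inner ℝ (N.b i) (tl Ω v) ^ 2
      by_cases h0 : N.κ i = 0
      · obtain ⟨c, hc⟩ := N.const ho hs.isPathConnected.isConnected.isPreconnected h0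
        have : inner ℝ (N.b i) (tl Ω v) = 0 := by
          rw [N.inner_e i hH.v_mem, setIntegral_congr_fun ho.measurableSet
            (g := fun z => c * v z) fun z hz => by simp only [hc z hz], integral_const_mul, hv0,
            mul_zero]
        rw [this]
        simp
      · exact mul_le_mul_of_nonneg_right (by linarith [hk i h0]) (sq_nonneg _)
    rw [real_inner_self_eq_norm_sq, hsq hH.v_mem, hn] at hle
    rw [le_div_iff₀ hv]
    linarith
  by_cases hne : {q : ℝ | ∃ v gx gy : ℂ → ℝ, IsH1 Ω v gx gy ∧ ∫ z in Ω, v z = 0 ∧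
      0 < ∫ z in Ω, v z ^ 2 ∧
      q = (∫ z in Ω, (gx z ^ 2 + gy z ^ 2)) / ∫ z in Ω, v z ^ 2}.Nonempty
  · have : muOne Ω + γ ≤ muOne Ω := le_csInf hne hlow
    linarith
  · rw [not_nonempty_iff_eq_empty] at hne
    unfold muOne at hμ
    rw [hne, Real.sInf_empty] at hμ
    exact lt_irrefl _ hμ

end Vale.Agent.P071.Quant
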